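import Mathlib

/-!
P302: bin packing. If a multiset of items does not fit into `k ≤ 5` bins, then the configuration LP
has value larger than `k - 1`.
-/

namespace Vale.Agent.P302S

/-- The multiset `I` of item sizes can be partitioned into `k` bins. -/
def Pack (I : Multiset ℝ) (k : ℕ) : Prop :=
  ∃ B : Fin k → Multiset ℝ, ∑ j, B j = I ∧ ∀ j, (B j).sum ≤ 1

/-- A dual certificate: nonnegative weights of total more than `v` such that no bin has weight more
than one. -/
def Cert (I : Multiset ℝ) (v : ℝ) : Prop :=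
  ∃ w : ℝ → ℝ, (∀ x, 0 ≤ w x) ∧
    (∀ m : Multiset ℝ, (∀ x ∈ m, x ∈ I) → m.sum ≤ 1 → (m.map w).sum ≤ 1) ∧
    v < (I.map w).sum

theorem cert_mono {I I' : Multiset ℝ} {v : ℝ} (h0 : ∀ x ∈ I, 0 ≤ x) (hI : I' ≤ I)
    (h : Cert I' v) : Cert I v := by
  classical
  obtain ⟨w, hw0, hw1, hw2⟩ := h
  refine ⟨fun x => if x ∈ I' then w x else 0, fun x => ?_, fun m hm hs => ?_, ?_⟩
  · show 0 ≤ if x ∈ I' then w x else 0
    split_ifs
    · exact hw0 x
    · exact le_rfl
  · have h1 : (m.map fun x => if x ∈ I' then w x else 0).sum =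
        ((m.filter (· ∈ I')).map w).sum := by
      have h2 : ∀ m : Multiset ℝ, (m.map fun x => if x ∈ I' then w x else 0).sum =
        ((m.filter (· ∈ I')).map w).sum := by
        intro m
        induction m using Multiset.induction_on with
        | empty => simp
        | cons a m ih =>
          by_cases ha : a ∈ I'
          · rw [Multiset.map_cons, Multiset.sum_cons, ih, Multiset.filter_cons_of_pos _ ha,
              Multiset.map_cons, Multiset.sum_cons, if_pos ha]
          · rw [Multiset.map_cons, Multiset.sum_cons, ih, Multiset.filter_cons_of_neg _ ha,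
              if_neg ha, zero_add]
      exact h2 m
    rw [h1]
    refine hw1 _ (fun x hx => (Multiset.mem_filter.1 hx).2) ?_
    refine le_trans ?_ hs
    have h3 : m.filter (· ∈ I') + m.filter (fun x => ¬ x ∈ I') = m := Multiset.filter_add_not _ m
    have h4 : 0 ≤ (m.filter (fun x => ¬ x ∈ I')).sum :=
      Multiset.sum_nonneg fun x hx => h0 x (hm x (Multiset.mem_filter.1 hx).1)
    have h5 := congrArg Multiset.sum h3
    rw [Multiset.sum_add] at h5
    linarith
  · obtain ⟨J, hJ⟩ := Multiset.le_iff_exists_add.1 hI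
    rw [hJ, Multiset.map_add, Multiset.sum_add]
    have h1 : (I'.map fun x => if x ∈ I' then w x else 0) = I'.map w :=
      Multiset.map_congr rfl fun x hx => if_pos hx
    have h2 : 0 ≤ (J.map fun x => if x ∈ I' then w x else 0).sum := by
      refine Multiset.sum_nonneg fun y hy => ?_
      obtain ⟨x, _, rfl⟩ := Multiset.mem_map.1 hy
      split_ifs
      · exact hw0 x
      · exact le_rfl
    rw [h1]
    linarith

/-- first weights -/
noncomputable def w1 (s x : ℝ) : ℝ := if 1 - s < x then 1 else if 1 / 2 < x then 2 / 3 else 1 / 3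

/-- second weights -/
noncomputable def w2 (s x : ℝ) : ℝ :=
  if 1 - s < x then 1 else if (1 - s) / 2 < x then 1 / 2 else 1 / 4

theorem w1_ge (s x : ℝ) : 1 / 3 ≤ w1 s x := by
  unfold w1
  split_ifs <;> norm_num

theorem w2_ge (s x : ℝ) : 1 / 4 ≤ w2 s x := by
  unfold w2
  split_ifs <;> norm_num

theorem w1_le (s x : ℝ) : w1 s x ≤ 1 := by
  unfold w1
  split_ifs <;> norm_num

theorem w2_le (s x : ℝ) : w2 s x ≤ 1 := by
  unfold w2
  split_ifs <;> norm_num

theorem card_le_three {s : ℝ} (hs : 1 / 4 < s) (m : Multiset ℝ) (hm : ∀ x ∈ m, s ≤ x)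
    (h1 : m.sum ≤ 1) : Multiset.card m ≤ 3 := by
  have h2 : Multiset.card m • s ≤ m.sum := Multiset.card_nsmul_le_sum hm
  rw [nsmul_eq_mul] at h2
  by_contra hcon
  have h3 : (4 : ℝ) ≤ (Multiset.card m : ℝ) := by exact_mod_cast not_le.1 hcon
  nlinarith

theorem w1_valid {s : ℝ} (hs : 1 / 4 < s) (m : Multiset ℝ) (hm : ∀ x ∈ m, s ≤ x)
    (h1 : m.sum ≤ 1) : (m.map (w1 s)).sum ≤ 1 := by
  have hc := card_le_three hs m hm h1
  have hcases : Multiset.card m = 0 ∨ Multiset.card m = 1 ∨ Multiset.card m = 2 ∨
    Multiset.card m = 3 := by omega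
  rcases hcases with h | h | h | h
  · rw [Multiset.card_eq_zero.1 h]
    simp
  · obtain ⟨x, rfl⟩ := Multiset.card_eq_one.1 h
    simp only [Multiset.map_singleton, Multiset.sum_singleton]
    exact w1_le s x
  · obtain ⟨x, y, rfl⟩ := Multiset.card_eq_two.1 h
    simp only [Multiset.insert_eq_cons, Multiset.map_cons, Multiset.map_singleton,
      Multiset.sum_cons, Multiset.sum_singleton] at h1 ⊢
    have hx := hm x (by simp)
    have hy := hm y (by simp)
    unfold w1
    split_ifs <;> linarith
  · obtain ⟨x, y, z, rfl⟩ := Multiset.card_eq_three.1 h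
    simp only [Multiset.insert_eq_cons, Multiset.map_cons, Multiset.map_singleton,
      Multiset.sum_cons, Multiset.sum_singleton] at h1 ⊢
    have hx := hm x (by simp)
    have hy := hm y (by simp)
    have hz := hm z (by simp)
    unfold w1
    split_ifs <;> linarith

theorem w2_valid {s : ℝ} (hs : 1 / 4 < s) (m : Multiset ℝ) (hm : ∀ x ∈ m, s ≤ x)
    (h1 : m.sum ≤ 1) : (m.map (w2 s)).sum ≤ 1 := by
  have hc := card_le_three hs m hm h1
  have hcases : Multiset.card m = 0 ∨ Multiset.card m = 1 ∨ Multiset.card m = 2 ∨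
    Multiset.card m = 3 := by omega
  rcases hcases with h | h | h | h
  · rw [Multiset.card_eq_zero.1 h]
    simp
  · obtain ⟨x, rfl⟩ := Multiset.card_eq_one.1 h
    simp only [Multiset.map_singleton, Multiset.sum_singleton]
    exact w2_le s x
  · obtain ⟨x, y, rfl⟩ := Multiset.card_eq_two.1 h
    simp only [Multiset.insert_eq_cons, Multiset.map_cons, Multiset.map_singleton,
      Multiset.sum_cons, Multiset.sum_singleton] at h1 ⊢
    have hx := hm x (by simp)
    have hy := hm y (by simp)
    unfold w2
    split_ifs <;> linarith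
  · obtain ⟨x, y, z, rfl⟩ := Multiset.card_eq_three.1 h
    simp only [Multiset.insert_eq_cons, Multiset.map_cons, Multiset.map_singleton,
      Multiset.sum_cons, Multiset.sum_singleton] at h1 ⊢
    have hx := hm x (by simp)
    have hy := hm y (by simp)
    have hz := hm z (by simp)
    unfold w2
    split_ifs <;> linarith

end Vale.Agent.P302S
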