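import Vale.Agent.Lib.P302S.Main

/-!
P302: the configuration LP, and weak duality.
-/

namespace Vale.Agent.P302S

/-- The least number of bins into which the items of `I` can be partitioned. -/
noncomputable def OPT (I : Multiset ℝ) : ℕ := sInf {k | Pack I k}

/-- A configuration of the instance `I`: a multiplicity for every size occurring in `I` (and zero
for the other sizes) with total size at most one. -/
def IsConfig (I : Multiset ℝ) (c : ℝ → ℕ) : Prop :=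
  (∀ σ, σ ∉ I → c σ = 0) ∧ ∑ σ ∈ I.toFinset, (c σ : ℝ) * σ ≤ 1

/-- `v` is the value of a feasible solution of the configuration LP: nonnegative weights `z j` on
configurations `c j` that cover every size at least as often as it occurs, of total weight `v`. -/
def LPFeasible (I : Multiset ℝ) (v : ℝ) : Prop :=
  ∃ (m : ℕ) (c : Fin m → ℝ → ℕ) (z : Fin m → ℝ), (∀ j, IsConfig I (c j)) ∧ (∀ j, 0 ≤ z j) ∧
    (∀ σ ∈ I, (I.count σ : ℝ) ≤ ∑ j, (c j σ : ℝ) * z j) ∧ ∑ j, z j = v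

/-- The value of the Gilmore-Gomory configuration LP. -/
noncomputable def LP (I : Multiset ℝ) : ℝ := sInf {v | LPFeasible I v}

theorem config_weight {I : Multiset ℝ} {w : ℝ → ℝ}
    (hw : ∀ m : Multiset ℝ, (∀ x ∈ m, x ∈ I) → m.sum ≤ 1 → (m.map w).sum ≤ 1) {c : ℝ → ℕ}
    (hc : IsConfig I c) : ∑ σ ∈ I.toFinset, (c σ : ℝ) * w σ ≤ 1 := by
  classical
  set m : Multiset ℝ := ∑ σ ∈ I.toFinset, Multiset.replicate (c σ) σ with hm
  have h1 : m.sum = ∑ σ ∈ I.toFinset, (c σ : ℝ) * σ := by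
    have h := map_sum (Multiset.sumAddMonoidHom : Multiset ℝ →+ ℝ)
      (fun σ => Multiset.replicate (c σ) σ) I.toFinset
    rw [hm]
    refine Eq.trans h (Finset.sum_congr rfl fun σ _ => ?_)
    show (Multiset.replicate (c σ) σ).sum = _
    rw [Multiset.sum_replicate, nsmul_eq_mul]
  have h2 : (m.map w).sum = ∑ σ ∈ I.toFinset, (c σ : ℝ) * w σ := by
    have h := map_sum ((Multiset.sumAddMonoidHom : Multiset ℝ →+ ℝ).comp
      (Multiset.mapAddMonoidHom w)) (fun σ => Multiset.replicate (c σ) σ) I.toFinset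
    rw [hm]
    refine Eq.trans h (Finset.sum_congr rfl fun σ _ => ?_)
    show ((Multiset.replicate (c σ) σ).map w).sum = _
    rw [Multiset.map_replicate, Multiset.sum_replicate, nsmul_eq_mul]
  rw [← h2]
  refine hw m (fun x hx => ?_) (by rw [h1]; exact hc.2)
  rw [hm, Multiset.mem_sum] at hx
  obtain ⟨σ, hσ, hx⟩ := hx
  rw [Multiset.eq_of_mem_replicate hx]
  exact Multiset.mem_toFinset.1 hσ

theorem weak_duality {I : Multiset ℝ} {w : ℝ → ℝ} (hw0 : ∀ x, 0 ≤ w x)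
    (hw : ∀ m : Multiset ℝ, (∀ x ∈ m, x ∈ I) → m.sum ≤ 1 → (m.map w).sum ≤ 1) {v : ℝ}
    (hv : LPFeasible I v) : (I.map w).sum ≤ v := by
  classical
  obtain ⟨m, c, z, hc, hz, hcov, rfl⟩ := hv
  rw [Finset.sum_multiset_map_count]
  calc ∑ σ ∈ I.toFinset, I.count σ • w σ
      ≤ ∑ σ ∈ I.toFinset, (∑ j, (c j σ : ℝ) * z j) * w σ := by
        refine Finset.sum_le_sum fun σ hσ => ?_
        rw [nsmul_eq_mul]
        exact mul_le_mul_of_nonneg_right (hcov σ (Multiset.mem_toFinset.1 hσ)) (hw0 σ)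
    _ = ∑ j, z j * ∑ σ ∈ I.toFinset, (c j σ : ℝ) * w σ := by
        simp only [Finset.sum_mul, Finset.mul_sum]
        rw [Finset.sum_comm]
        refine Finset.sum_congr rfl fun j _ => Finset.sum_congr rfl fun σ _ => ?_
        ring
    _ ≤ ∑ j, z j := by
        refine Finset.sum_le_sum fun j _ => ?_
        have h := config_weight hw (hc j)
        have h2 := hz j
        nlinarith

theorem exists_feasible (I : Multiset ℝ) (hI : ∀ x ∈ I, 0 < x ∧ x ≤ 1) :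
    ∃ v, LPFeasible I v := by
  classical
  let e := I.toFinset.equivFin
  refine ⟨_, I.toFinset.card, fun j σ => if σ = (e.symm j : ℝ) then 1 else 0,
    fun j => (I.count (e.symm j : ℝ) : ℝ), fun j => ⟨fun σ hσ => ?_, ?_⟩,
    fun j => Nat.cast_nonneg _, fun σ hσ => ?_, rfl⟩
  · show (if σ = (e.symm j : ℝ) then 1 else 0) = 0
    rw [if_neg]
    rintro rfl
    exact hσ (Multiset.mem_toFinset.1 (e.symm j).2)
  · show ∑ σ ∈ I.toFinset, (((if σ = (e.symm j : ℝ) then 1 else 0 : ℕ) : ℝ) * σ) ≤ 1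
    rw [Finset.sum_eq_single (e.symm j : ℝ)]
    · rw [if_pos rfl, Nat.cast_one, one_mul]
      exact (hI _ (Multiset.mem_toFinset.1 (e.symm j).2)).2
    · intro σ _ hσ
      rw [if_neg hσ, Nat.cast_zero, zero_mul]
    · intro h
      exact absurd (e.symm j).2 h
  · have hmem : σ ∈ I.toFinset := Multiset.mem_toFinset.2 hσ
    have h1 := Finset.single_le_sum (f := fun j =>
      (((if σ = (e.symm j : ℝ) then 1 else 0 : ℕ) : ℝ) * (I.count (e.symm j : ℝ) : ℝ)))
      (fun j _ => mul_nonneg (Nat.cast_nonneg _) (Nat.cast_nonneg _))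
      (Finset.mem_univ (e ⟨σ, hmem⟩))
    simp only [Equiv.symm_apply_apply, if_true, Nat.cast_one, one_mul] at h1
    exact h1

theorem lt_LP {I : Multiset ℝ} (hI : ∀ x ∈ I, 0 < x ∧ x ≤ 1) {v : ℝ} (h : Cert I v) :
    v < LP I := by
  obtain ⟨w, hw0, hw1, hw2⟩ := h
  refine lt_of_lt_of_le hw2 (le_csInf (exists_feasible I hI) fun u hu => ?_)
  exact weak_duality hw0 hw1 hu

theorem LP_nonneg (I : Multiset ℝ) : 0 ≤ LP I := by
  refine Real.sInf_nonneg fun v hv => ?_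
  obtain ⟨m, c, z, _, hz, _, rfl⟩ := hv
  exact Finset.sum_nonneg fun j _ => hz j

theorem small_LP {I : Multiset ℝ} (hI : ∀ x ∈ I, 0 < x ∧ x ≤ 1) {q : ℕ}
    (hq : q ≤ 4 ∨ (q ≤ 6 ∧ ∀ x ∈ I, 1 / 4 < x)) (h : LP I ≤ q) :
    (OPT I : ℤ) ≤ ⌈LP I⌉ + 1 := by
  obtain ⟨m, hm⟩ := Int.eq_ofNat_of_zero_le (Int.ceil_nonneg (LP_nonneg I))
  have h1 : m ≤ q := by
    have h0 : (m : ℤ) ≤ q := by
      rw [← hm]
      exact Int.ceil_le.2 (by exact_mod_cast h)
    exact_mod_cast h0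
  have hk : m + 1 ≤ 5 ∨ (m + 1 ≤ 7 ∧ ∀ x ∈ I, 1 / 4 < x) :=
    hq.imp (fun h => by omega) fun h => ⟨by omega, h.2⟩
  have hp : Pack I (m + 1) := by
    by_contra hn
    have h2 := lt_LP hI (main _ I rfl hk hI hn)
    have h3 : LP I ≤ (m : ℝ) := by
      have h4 := Int.le_ceil (LP I)
      rw [hm] at h4
      exact_mod_cast h4
    push_cast at h2
    linarith
  have h5 : OPT I ≤ m + 1 := Nat.sInf_le hp
  rw [hm]
  exact_mod_cast h5

theorem small_OPT {I : Multiset ℝ} (hI : ∀ x ∈ I, 0 < x ∧ x ≤ 1) {q : ℕ}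
    (hq : q ≤ 4 ∨ (q ≤ 6 ∧ ∀ x ∈ I, 1 / 4 < x)) (h : OPT I ≤ q + 2) :
    (OPT I : ℤ) ≤ ⌈LP I⌉ + 1 := by
  by_contra hcon
  have h1 : ⌈LP I⌉ ≤ q := by
    have h2 : (OPT I : ℤ) ≤ q + 2 := by exact_mod_cast h
    omega
  have h3 : LP I ≤ q := by
    have h4 := Int.ceil_le.1 h1
    exact_mod_cast h4
  exact hcon (small_LP hI hq h3)

end Vale.Agent.P302S
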