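import Vale.Agent.Lib.P302S.Core

/-!
P302: the main combinatorial theorem.
-/

namespace Vale.Agent.P302S

theorem bin_w1 {s : ℝ} (hs1 : s ≤ 1) (m : Multiset ℝ) (h1 : 1 < m.sum + s)
    (hT : ¬ (Multiset.card m = 2 ∧ ∀ x ∈ m, x ≤ 1 / 2)) : 1 ≤ (m.map (w1 s)).sum := by
  have hcases : Multiset.card m = 0 ∨ Multiset.card m = 1 ∨ Multiset.card m = 2 ∨
    3 ≤ Multiset.card m := by omega
  rcases hcases with h | h | h | h
  · rw [Multiset.card_eq_zero.1 h, Multiset.sum_zero] at h1
    linarith
  · obtain ⟨x, rfl⟩ := Multiset.card_eq_one.1 h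
    simp only [Multiset.map_singleton, Multiset.sum_singleton] at h1 ⊢
    unfold w1
    rw [if_pos (by linarith)]
  · obtain ⟨x, y, rfl⟩ := Multiset.card_eq_two.1 h
    have h2 : ¬ ∀ z ∈ ({x, y} : Multiset ℝ), z ≤ 1 / 2 := fun h3 => hT ⟨h, h3⟩
    simp only [Multiset.insert_eq_cons, Multiset.map_cons, Multiset.map_singleton,
      Multiset.sum_cons, Multiset.sum_singleton, Multiset.mem_cons, Multiset.mem_singleton,
      forall_eq_or_imp, forall_eq] at h1 h2 ⊢
    have hx := w1_ge s x
    have hy := w1_ge s y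
    by_cases hx2 : x ≤ 1 / 2
    · have hy2 : 1 / 2 < y := not_le.1 fun hy2 => h2 ⟨hx2, hy2⟩
      have h3 : 2 / 3 ≤ w1 s y := by
        unfold w1
        rw [if_pos hy2]
        split_ifs <;> norm_num
      linarith
    · have h3 : 2 / 3 ≤ w1 s x := by
        unfold w1
        rw [if_pos (not_le.1 hx2)]
        split_ifs <;> norm_num
      linarith
  · have h2 : Multiset.card (m.map (w1 s)) • (1 / 3 : ℝ) ≤ (m.map (w1 s)).sum := by
      refine Multiset.card_nsmul_le_sum fun y hy => ?_
      obtain ⟨x, _, rfl⟩ := Multiset.mem_map.1 hy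
      exact w1_ge s x
    rw [Multiset.card_map, nsmul_eq_mul] at h2
    have h3 : (3 : ℝ) ≤ (Multiset.card m : ℝ) := by exact_mod_cast h
    linarith

theorem bin_w1' {s : ℝ} (m : Multiset ℝ) (hT : Multiset.card m = 2) :
    2 / 3 ≤ (m.map (w1 s)).sum := by
  obtain ⟨x, y, rfl⟩ := Multiset.card_eq_two.1 hT
  simp only [Multiset.insert_eq_cons, Multiset.map_cons, Multiset.map_singleton,
      Multiset.sum_cons, Multiset.sum_singleton]
  have hx := w1_ge s x
  have hy := w1_ge s y
  linarith

theorem w2_half {s x : ℝ} (h : (1 - s) / 2 < x) : 1 / 2 ≤ w2 s x := by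
  unfold w2
  rw [if_pos h]
  split_ifs <;> norm_num

theorem bin_w2 {s : ℝ} (hs1 : s ≤ 1) (m : Multiset ℝ) (h1 : 1 < m.sum + s) :
    3 / 4 ≤ (m.map (w2 s)).sum := by
  have hcases : Multiset.card m = 0 ∨ Multiset.card m = 1 ∨ Multiset.card m = 2 ∨
    3 ≤ Multiset.card m := by omega
  rcases hcases with h | h | h | h
  · rw [Multiset.card_eq_zero.1 h, Multiset.sum_zero] at h1
    linarith
  · obtain ⟨x, rfl⟩ := Multiset.card_eq_one.1 h
    simp only [Multiset.map_singleton, Multiset.sum_singleton] at h1 ⊢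
    unfold w2
    rw [if_pos (by linarith)]
    norm_num
  · obtain ⟨x, y, rfl⟩ := Multiset.card_eq_two.1 h
    simp only [Multiset.insert_eq_cons, Multiset.map_cons, Multiset.map_singleton,
      Multiset.sum_cons, Multiset.sum_singleton] at h1 ⊢
    have hx := w2_ge s x
    have hy := w2_ge s y
    by_cases hx2 : (1 - s) / 2 < x
    · have := w2_half hx2
      linarith
    · have := w2_half (s := s) (x := y) (by linarith)
      linarith
  · have h2 : Multiset.card (m.map (w2 s)) • (1 / 4 : ℝ) ≤ (m.map (w2 s)).sum := by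
      refine Multiset.card_nsmul_le_sum fun y hy => ?_
      obtain ⟨x, _, rfl⟩ := Multiset.mem_map.1 hy
      exact w2_ge s x
    rw [Multiset.card_map, nsmul_eq_mul] at h2
    have h3 : (3 : ℝ) ≤ (Multiset.card m : ℝ) := by exact_mod_cast h
    linarith

theorem bin_bad {s : ℝ} (m : Multiset ℝ) (h2 : Multiset.card m = 2) (hm : ∀ x ∈ m, x ≤ 1 / 2)
    (hb : (m.map (w2 s)).sum < 1) : ∃ x y, m = {x, y} ∧ x ≤ 1 / 2 ∧ y ≤ (1 - s) / 2 := by
  obtain ⟨x, y, rfl⟩ := Multiset.card_eq_two.1 h2
  have hx := hm x (by simp)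
  have hy := hm y (by simp)
  by_cases hy2 : y ≤ (1 - s) / 2
  · exact ⟨x, y, rfl, hx, hy2⟩
  · by_cases hx2 : x ≤ (1 - s) / 2
    · exact ⟨y, x, Multiset.pair_comm x y, hy, hx2⟩
    · exfalso
      simp only [Multiset.insert_eq_cons, Multiset.map_cons, Multiset.map_singleton,
        Multiset.sum_cons, Multiset.sum_singleton] at hb
      have h3 := w2_half (not_le.1 hx2)
      have h4 := w2_half (not_le.1 hy2)
      linarith

/-- the weight of a sum of bins -/
theorem sum_map_sum {k : ℕ} (w : ℝ → ℝ) (B : Fin k → Multiset ℝ) :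
    ((∑ j, B j).map w).sum = ∑ j, ((B j).map w).sum := by
  have h := map_sum ((Multiset.sumAddMonoidHom : Multiset ℝ →+ ℝ).comp
    (Multiset.mapAddMonoidHom w)) B Finset.univ
  exact h

theorem sum_two {k : ℕ} (F : Fin k → Multiset ℝ) {j j' : Fin k} (h : j ≠ j') :
    ∑ i, F i = F j + (F j' + ∑ i ∈ (Finset.univ.erase j).erase j', F i) := by
  rw [← Finset.add_sum_erase Finset.univ F (Finset.mem_univ j),
    ← Finset.add_sum_erase (Finset.univ.erase j) F
      (Finset.mem_erase.2 ⟨h.symm, Finset.mem_univ j'⟩)]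

theorem room {k : ℕ} {I : Multiset ℝ} {s : ℝ} (B : Fin k → Multiset ℝ)
    (hB : ∀ j, (B j).sum ≤ 1) (hI : s ::ₘ ∑ j, B j = I) (hn : ¬ Pack I k) (j : Fin k) :
    1 < (B j).sum + s := by
  classical
  by_contra hcon
  apply hn
  refine ⟨fun i => if i = j then s ::ₘ B j else B i, ?_, fun i => ?_⟩
  · rw [← hI, ← Finset.add_sum_erase Finset.univ _ (Finset.mem_univ j),
      ← Finset.add_sum_erase Finset.univ B (Finset.mem_univ j), if_pos rfl, Multiset.cons_add]
    congr 2
    refine Finset.sum_congr rfl fun i hi => ?_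
    rw [if_neg (Finset.ne_of_mem_erase hi)]
  · show (if i = j then s ::ₘ B j else B i).sum ≤ 1
    split_ifs
    · rw [Multiset.sum_cons]
      linarith
    · exact hB i

theorem exchange {k : ℕ} {I : Multiset ℝ} {s : ℝ} (B : Fin k → Multiset ℝ)
    (hB : ∀ j, (B j).sum ≤ 1) (hI : s ::ₘ ∑ j, B j = I) (hn : ¬ Pack I k) {j j' : Fin k}
    (hj : j ≠ j') {x y x' y' : ℝ} (h1 : B j = {x, y}) (h2 : B j' = {x', y'})
    (hx : x ≤ 1 / 2) (hx' : x' ≤ 1 / 2) (hy : y ≤ (1 - s) / 2) (hy' : y' ≤ (1 - s) / 2) :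
    False := by
  classical
  apply hn
  refine ⟨fun i => if i = j then {x, x'} else if i = j' then {y, y', s} else B i, ?_,
    fun i => ?_⟩
  · rw [← hI, sum_two _ hj, sum_two B hj, if_pos rfl, if_neg hj.symm, if_pos rfl, h1, h2]
    have h3 : ∑ i ∈ (Finset.univ.erase j).erase j',
        (if i = j then ({x, x'} : Multiset ℝ) else if i = j' then {y, y', s} else B i) =
        ∑ i ∈ (Finset.univ.erase j).erase j', B i := by
      refine Finset.sum_congr rfl fun i hi => ?_
      rw [if_neg (Finset.ne_of_mem_erase (Finset.mem_of_mem_erase hi)),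
        if_neg (Finset.ne_of_mem_erase hi)]
    rw [h3]
    simp only [Multiset.insert_eq_cons, ← Multiset.singleton_add]
    abel
  · show (if i = j then ({x, x'} : Multiset ℝ) else if i = j' then {y, y', s} else B i).sum ≤ 1
    split_ifs
    · simp only [Multiset.insert_eq_cons, Multiset.sum_cons, Multiset.sum_singleton]
      linarith
    · simp only [Multiset.insert_eq_cons, Multiset.sum_cons, Multiset.sum_singleton]
      linarith
    · exact hB i

theorem step {k : ℕ} (hk0 : 0 < k) {I : Multiset ℝ} {s : ℝ}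
    (hk : k ≤ 5 ∨ (k ≤ 7 ∧ 1 / 4 < s)) (hI1 : ∀ x ∈ I, 0 < x ∧ x ≤ 1) (hs : ∀ x ∈ I, s ≤ x) (B : Fin k → Multiset ℝ)
    (hB : ∀ j, (B j).sum ≤ 1) (hI : s ::ₘ ∑ j, B j = I) (hn : ¬ Pack I k) :
    Cert I ((k : ℝ) - 1) := by
  classical
  have hroom := room B hB hI hn
  have hsI : s ∈ I := by
    rw [← hI]
    exact Multiset.mem_cons_self s _
  have hs0 := (hI1 s hsI).1
  have hs1 := (hI1 s hsI).2
  have hk0' : (1 : ℝ) ≤ k := by exact_mod_cast hk0
  have hk7 : (k : ℝ) ≤ 7 := by
    have : k ≤ 7 := by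
      rcases hk with h | h
      · omega
      · exact h.1
    exact_mod_cast this
  rcases le_or_gt s (1 / 4) with h4 | h4
  · -- small last item: total size
    have hk' : (k : ℝ) ≤ 5 := by
      rcases hk with h | h
      · exact_mod_cast h
      · exact absurd h.2 (not_lt.2 h4)
    refine ⟨fun x => |x|, fun x => abs_nonneg x, fun m hm hm1 => ?_, ?_⟩
    · rw [Multiset.map_congr rfl fun x hx => abs_of_pos (hI1 x (hm x hx)).1, Multiset.map_id']
      exact hm1
    · rw [Multiset.map_congr rfl fun x hx => abs_of_pos (hI1 x hx).1, ← hI, Multiset.map_cons,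
        Multiset.sum_cons, sum_map_sum]
      have h5 : ∑ _j : Fin k, (1 - s) < ∑ j, ((B j).map fun x => x).sum := by
        refine Finset.sum_lt_sum_of_nonempty ⟨⟨0, hk0⟩, Finset.mem_univ _⟩ fun j _ => ?_
        rw [Multiset.map_id']
        have := hroom j
        linarith
      rw [Finset.sum_const, Finset.card_univ, Fintype.card_fin, nsmul_eq_mul] at h5
      nlinarith
  · set T : Finset (Fin k) := Finset.univ.filter fun j =>
      Multiset.card (B j) = 2 ∧ ∀ x ∈ B j, x ≤ 1 / 2 with hT
    have hTk : T.card ≤ k := by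
      have := Finset.card_le_univ T
      rwa [Fintype.card_fin] at this
    have hTk' : (T.card : ℝ) ≤ k := by exact_mod_cast hTk
    rcases le_or_gt T.card 3 with hT3 | hT3
    · refine ⟨w1 s, fun x => by linarith [w1_ge s x], fun m hm hm1 =>
        w1_valid h4 m (fun x hx => hs x (hm x hx)) hm1, ?_⟩
      rw [← hI, Multiset.map_cons, Multiset.sum_cons, sum_map_sum]
      have h5 : ∑ j : Fin k, (1 - (if j ∈ T then (1 / 3 : ℝ) else 0)) ≤
          ∑ j, ((B j).map (w1 s)).sum := by
        refine Finset.sum_le_sum fun j _ => ?_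
        by_cases hj : j ∈ T
        · rw [if_pos hj]
          have := bin_w1' (s := s) (B j) (Finset.mem_filter.1 hj).2.1
          linarith
        · rw [if_neg hj, sub_zero]
          refine bin_w1 hs1 (B j) (hroom j) fun h => hj ?_
          exact Finset.mem_filter.2 ⟨Finset.mem_univ _, h⟩
      rw [Finset.sum_sub_distrib, Finset.sum_const, Finset.card_univ, Fintype.card_fin,
        nsmul_eq_mul, mul_one, Finset.sum_ite_mem, Finset.univ_inter, Finset.sum_const,
        nsmul_eq_mul] at h5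
      have h6 := w1_ge s s
      have h7 : (T.card : ℝ) ≤ 3 := by exact_mod_cast hT3
      linarith
    · set D : Finset (Fin k) := T.filter fun j => ((B j).map (w2 s)).sum < 1 with hD
      have hD1 : D.card ≤ 1 := by
        rw [Finset.card_le_one]
        intro j hj j' hj'
        by_contra hne
        have a1 := Finset.mem_filter.1 hj
        have a2 := Finset.mem_filter.1 hj'
        have b1 := (Finset.mem_filter.1 a1.1).2
        have b2 := (Finset.mem_filter.1 a2.1).2
        obtain ⟨x, y, e1, hx, hy⟩ := bin_bad (B j) b1.1 b1.2 a1.2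
        obtain ⟨x', y', e2, hx', hy'⟩ := bin_bad (B j') b2.1 b2.2 a2.2
        exact exchange B hB hI hn hne e1 e2 hx hx' hy hy'
      refine ⟨w2 s, fun x => by linarith [w2_ge s x], fun m hm hm1 =>
        w2_valid h4 m (fun x hx => hs x (hm x hx)) hm1, ?_⟩
      rw [← hI, Multiset.map_cons, Multiset.sum_cons, sum_map_sum]
      have h5 : ∑ j : Fin k, (3 / 4 + (if j ∈ T then (1 / 4 : ℝ) else 0) -
          (if j ∈ D then (1 / 4 : ℝ) else 0)) ≤ ∑ j, ((B j).map (w2 s)).sum := by
        refine Finset.sum_le_sum fun j _ => ?_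
        have h6 := bin_w2 hs1 (B j) (hroom j)
        by_cases hj : j ∈ T
        · rw [if_pos hj]
          by_cases hjD : j ∈ D
          · rw [if_pos hjD]
            linarith
          · rw [if_neg hjD]
            have h7 : 1 ≤ ((B j).map (w2 s)).sum := by
              by_contra hcon
              exact hjD (Finset.mem_filter.2 ⟨hj, not_le.1 hcon⟩)
            linarith
        · rw [if_neg hj, if_neg fun hjD => hj (Finset.mem_filter.1 hjD).1]
          linarith
      rw [Finset.sum_sub_distrib, Finset.sum_add_distrib, Finset.sum_const, Finset.card_univ,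
        Fintype.card_fin, nsmul_eq_mul, Finset.sum_ite_mem, Finset.sum_ite_mem,
        Finset.univ_inter, Finset.univ_inter, Finset.sum_const, Finset.sum_const, nsmul_eq_mul,
        nsmul_eq_mul] at h5
      have h6 := w2_ge s s
      have h7 : (4 : ℝ) ≤ T.card := by exact_mod_cast hT3
      have h8 : (D.card : ℝ) ≤ 1 := by exact_mod_cast hD1
      linarith

theorem main {k : ℕ} : ∀ (n : ℕ) (I : Multiset ℝ), Multiset.card I = n →
    (k ≤ 5 ∨ (k ≤ 7 ∧ ∀ x ∈ I, 1 / 4 < x)) →
    (∀ x ∈ I, 0 < x ∧ x ≤ 1) → ¬ Pack I k → Cert I ((k : ℝ) - 1) := by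
  classical
  intro n
  induction n with
  | zero =>
    intro I hI _ _ hn
    exfalso
    apply hn
    refine ⟨fun _ => 0, ?_, fun _ => ?_⟩
    · rw [Finset.sum_const_zero, Multiset.card_eq_zero.1 hI]
    · show (0 : Multiset ℝ).sum ≤ 1
      rw [Multiset.sum_zero]
      exact zero_le_one
  | succ n ih =>
    intro I hI hk hI1 hn
    rcases Nat.eq_zero_or_pos k with hk0 | hk0
    · subst hk0
      refine ⟨fun _ => 0, fun _ => le_rfl, fun m _ _ => ?_, ?_⟩
      · simp
      · simp
    have hne : I.toFinset.Nonempty := by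
      rw [Multiset.toFinset_nonempty]
      intro h0
      rw [h0, Multiset.card_zero] at hI
      omega
    obtain ⟨s, hs, hmin⟩ := Finset.exists_min_image I.toFinset id hne
    have hsI : s ∈ I := Multiset.mem_toFinset.1 hs
    have hle : ∀ x ∈ I, s ≤ x := fun x hx => hmin x (Multiset.mem_toFinset.2 hx)
    have hcons : s ::ₘ I.erase s = I := Multiset.cons_erase hsI
    have hcard : Multiset.card (I.erase s) = n := by
      rw [Multiset.card_erase_of_mem hsI, hI]
      rfl
    by_cases hp : Pack (I.erase s) k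
    · obtain ⟨B, hB1, hB2⟩ := hp
      refine step hk0 (hk.imp id fun h => ⟨h.1, h.2 s hsI⟩) hI1 hle B hB2 ?_ hn
      rw [hB1, hcons]
    · exact cert_mono (fun x hx => (hI1 x hx).1.le) (Multiset.erase_le s I)
        (ih (I.erase s) hcard
          (hk.imp id fun h => ⟨h.1, fun x hx => h.2 x (Multiset.mem_of_mem_erase hx)⟩)
          (fun x hx => hI1 x (Multiset.mem_of_mem_erase hx)) hp)

end Vale.Agent.P302S
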